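import Vale.Agent.P144Z.G.Basic

/-! Connected sets and the Steiner size. -/

set_option linter.unusedSectionVars false

namespace Vale.Agent.P144Z

open Finset Matrix

variable {M : ℕ} [NeZero M]

namespace G

/-- Reachable inside `Y`. -/
abbrev Rch (Y : Finset (Tor M)) (x y : Tor M) : Prop :=
  Relation.ReflTransGen (fun u w => w ∈ Y ∧ tdist u w ≤ 1) x y

theorem rch_mono {Y Y' : Finset (Tor M)} (h : Y ⊆ Y') {x y : Tor M} (hr : Rch Y x y) :
    Rch Y' x y := by
  induction hr with
  | refl => exact Relation.ReflTransGen.refl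
  | tail _ hw ih => exact ih.tail ⟨h hw.1, hw.2⟩

theorem rch_step {Y : Finset (Tor M)} {x y : Tor M} (hy : y ∈ Y) (h : tdist x y ≤ 1) :
    Rch Y x y := Relation.ReflTransGen.single ⟨hy, h⟩

theorem rch_symm {Y : Finset (Tor M)} {x y : Tor M} (hx : x ∈ Y) (hr : Rch Y x y) :
    Rch Y y x ∧ y ∈ Y := by
  induction hr with
  | refl => exact ⟨Relation.ReflTransGen.refl, hx⟩
  | tail _ h ih => exact ⟨(rch_step ih.2 (by rw [tdist_comm]; exact h.2)).trans ih.1, h.1⟩

theorem conn_of_hub {Y : Finset (Tor M)} {h : Tor M} (hh : h ∈ Y) (H : ∀ x ∈ Y, Rch Y h x) :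
    Conn Y := fun x hx y hy => (rch_symm hh (H x hx)).1.trans (H y hy)

theorem conn_singleton (x : Tor M) : Conn ({x} : Finset (Tor M)) :=
  conn_of_hub (mem_singleton_self x) fun y hy => by
    rw [mem_singleton.1 hy]

theorem conn_union {Y Y' : Finset (Tor M)} (hY : Conn Y) (hY' : Conn Y') {a b : Tor M}
    (ha : a ∈ Y) (hb : b ∈ Y') (h : tdist a b ≤ 1) : Conn (Y ∪ Y') := by
  refine conn_of_hub (mem_union_left _ ha) fun x hx => ?_
  rcases mem_union.1 hx with hx | hx
  · exact rch_mono subset_union_left (hY a ha x hx)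
  · exact (rch_step (mem_union_right _ hb) h).trans (rch_mono subset_union_right (hY' b hb x hx))

theorem exists_closer {x y : Tor M} {n : ℕ} (h : tdist x y ≤ n + 1) :
    ∃ x', tdist x x' ≤ 1 ∧ tdist x' y ≤ n := by
  have ex := add_prj_lft x y
  rw [tdist_def] at h
  set v := lft (x - y)
  refine ⟨y + prj M (v.1 - v.1.sign, v.2 - v.2.sign), ?_, ?_⟩
  · rw [← ex]
    refine (tdist_add_prj_le' y _ _).trans ?_
    have h1 : v.1.sign.natAbs ≤ 1 := by rcases Int.sign_trichotomy v.1 with h | h | h <;> simp [h]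
    have h2 : v.2.sign.natAbs ≤ 1 := by rcases Int.sign_trichotomy v.2 with h | h | h <;> simp [h]
    simp only [sub_sub_cancel]
    omega
  · refine (tdist_add_prj_le y _).trans ?_
    have key : ∀ a : ℤ, a.natAbs ≤ n + 1 → (a - a.sign).natAbs ≤ n := by
      intro a ha
      rcases lt_trichotomy a 0 with h | h | h
      · rw [Int.sign_eq_neg_one_of_neg h]
        omega
      · simp [h]
      · rw [Int.sign_eq_one_of_pos h]
        omega
    exact max_le (key _ (by omega)) (key _ (by omega))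

theorem exists_path (n : ℕ) : ∀ x y : Tor M, tdist x y ≤ n →
    ∃ P : Finset (Tor M), x ∈ P ∧ y ∈ P ∧ Conn P ∧ P.card ≤ n + 1 := by
  induction n with
  | zero =>
    intro x y h
    obtain rfl := tdist_eq_zero (Nat.le_zero.1 h)
    exact ⟨{x}, mem_singleton_self x, mem_singleton_self x, conn_singleton x, by simp⟩
  | succ n ih =>
    intro x y h
    obtain ⟨x', h1, h2⟩ := exists_closer h
    obtain ⟨P, hx, hy, hP, hc⟩ := ih x' y h2
    refine ⟨{x} ∪ P, mem_union_left _ (mem_singleton_self x), mem_union_right _ hy,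
      conn_union (conn_singleton x) hP (mem_singleton_self x) hx h1, ?_⟩
    have := card_union_le ({x} : Finset (Tor M)) P
    rw [card_singleton] at this
    omega

theorem conn_univ : Conn (univ : Finset (Tor M)) := fun x _ y _ => by
  obtain ⟨P, hx, hy, hP, -⟩ := exists_path _ x y le_rfl
  exact rch_mono (subset_univ P) (hP x hx y hy)

theorem stein_le {X Y : Finset (Tor M)} {n : ℕ} (h : X ⊆ Y) (hY : Conn Y) (hc : Y.card ≤ n + 1) :
    stein X ≤ n := Nat.sInf_le ⟨Y, h, hY, hc⟩

theorem rch_ivt {Y : Finset (Tor M)} {p q : Tor M} (hp : p ∈ Y) (hr : Rch Y p q) (c : Tor M)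
    {k : ℕ} (h1 : tdist p c ≤ k) (h2 : k ≤ tdist q c) : ∃ u ∈ Y, tdist u c = k := by
  induction hr with
  | refl => exact ⟨p, hp, le_antisymm h1 h2⟩
  | @tail b q _ h ih =>
    by_cases hb : k ≤ tdist b c
    · exact ih hb
    · have := tdist_triangle q b c
      have h3 := h.2
      rw [tdist_comm] at h3
      exact ⟨q, h.1, by omega⟩

/-- A connected set that leaves a square has many points in it. -/
theorem card_near {Y : Finset (Tor M)} (hY : Conn Y) {p q : Tor M} (hp : p ∈ Y) (hq : q ∈ Y)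
    (c : Tor M) {a b : ℕ} (h1 : tdist p c ≤ a) (h2 : b ≤ tdist q c) :
    b + 1 - a ≤ (Y.filter fun u => tdist u c ≤ b).card := by
  rw [← Nat.card_Icc]
  refine le_trans (card_le_card ?_) (card_image_le (f := fun u => tdist u c))
  intro k hk
  rw [mem_Icc] at hk
  obtain ⟨u, hu, e⟩ := rch_ivt hp (hY p hp q hq) c (h1.trans hk.1) (hk.2.trans h2)
  exact mem_image.2 ⟨u, mem_filter.2 ⟨hu, by omega⟩, e⟩

theorem tdist_lt_card {Y : Finset (Tor M)} (hY : Conn Y) {p q : Tor M} (hp : p ∈ Y)
    (hq : q ∈ Y) : tdist q p + 1 ≤ Y.card := by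
  have h := card_near hY hp hq p (a := 0) (by rw [tdist_self]) le_rfl
  exact h.trans (card_filter_le _ _)

theorem pack {Y F : Finset (Tor M)} {b k : ℕ}
    (hF : ∀ f ∈ F, ∀ f' ∈ F, f ≠ f' → 2 * b < tdist f f')
    (hk : ∀ f ∈ F, k ≤ (Y.filter fun u => tdist u f ≤ b).card) : F.card * k ≤ Y.card := by
  have hd : (F : Set (Tor M)).PairwiseDisjoint fun f => Y.filter fun u => tdist u f ≤ b := by
    intro f hf f' hf' hne
    refine disjoint_left.2 fun u h1 h2 => ?_
    have h3 := hF f hf f' hf' hne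
    have h4 := tdist_triangle f u f'
    have h5 := (mem_filter.1 h1).2
    have h6 := (mem_filter.1 h2).2
    rw [tdist_comm] at h5
    omega
  calc F.card * k = ∑ _f ∈ F, k := by simp
    _ ≤ ∑ f ∈ F, (Y.filter fun u => tdist u f ≤ b).card := sum_le_sum hk
    _ = (F.biUnion fun f => Y.filter fun u => tdist u f ≤ b).card := (card_biUnion hd).symm
    _ ≤ Y.card := card_le_card (biUnion_subset.2 fun f _ => filter_subset _ _)

theorem card_union_succ_le {Y Y' : Finset (Tor M)} {a : Tor M} (h : a ∈ Y) (h' : a ∈ Y') :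
    (Y ∪ Y').card + 1 ≤ Y.card + Y'.card := by
  rw [← card_union_add_card_inter]
  have : 0 < (Y ∩ Y').card := card_pos.2 ⟨a, mem_inter.2 ⟨h, h'⟩⟩
  omega

theorem conn_image {M' : ℕ} [NeZero M'] (φ : Tor M → Tor M') {Y : Finset (Tor M)} (hY : Conn Y)
    (hφ : ∀ u ∈ Y, ∀ w ∈ Y, tdist u w ≤ 1 → tdist (φ u) (φ w) ≤ 1) : Conn (Y.image φ) := by
  intro x' hx' y' hy'
  obtain ⟨x, hx, rfl⟩ := mem_image.1 hx'
  obtain ⟨y, hy, rfl⟩ := mem_image.1 hy'
  have h := hY x hx y hy
  clear hy hy'
  induction h with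
  | refl => exact Relation.ReflTransGen.refl
  | tail h1 h ih =>
    exact ih.tail ⟨mem_image_of_mem φ h.1, hφ _ (rch_symm hx h1).2 _ h.1 h.2⟩

theorem mem_star_self (x : Tor M) : x ∈ star x := by simp [star]

theorem tdist_star {x y : Tor M} (h : y ∈ star x) : tdist x y ≤ 1 := by
  have h1 : ∀ i, tdist x (x + uv M i) ≤ 1 := fun i => by
    rw [tdist_comm]
    exact tdist_uv x i
  have h2 : ∀ i, tdist x (x - uv M i) ≤ 1 := fun i => by
    simpa using tdist_uv (x - uv M i) i
  simp only [star, mem_insert, mem_singleton] at h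
  rcases h with rfl | rfl | rfl | rfl | rfl
  · simp [tdist_self]
  exacts [h1 0, h2 0, h1 1, h2 1]

theorem card_star_le (x : Tor M) : (star x).card ≤ 5 := card_le_five

theorem subset_plus (X : Finset (Tor M)) : X ⊆ plus X := fun x hx =>
  mem_biUnion.2 ⟨x, hx, mem_star_self x⟩

theorem conn_plus {Y : Finset (Tor M)} (hY : Conn Y) : Conn (plus Y) := by
  intro p hp q hq
  obtain ⟨y, hy, h1⟩ := mem_biUnion.1 hp
  obtain ⟨y', hy', h2⟩ := mem_biUnion.1 hq
  exact ((rch_step (subset_plus Y hy) (by rw [tdist_comm]; exact tdist_star h1)).trans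
    (rch_mono (subset_plus Y) (hY y hy y' hy'))).trans (rch_step hq (tdist_star h2))

end G

theorem exists_stein (X : Finset (Tor M)) :
    ∃ Y : Finset (Tor M), X ⊆ Y ∧ Conn Y ∧ Y.card ≤ stein X + 1 :=
  Nat.sInf_mem (s := {n | ∃ Y : Finset (Tor M), X ⊆ Y ∧ Conn Y ∧ Y.card ≤ n + 1})
    ⟨_, univ, subset_univ X, G.conn_univ, Nat.le_succ _⟩

theorem stein_mono {X Y : Finset (Tor M)} (h : X ⊆ Y) : stein X ≤ stein Y := by
  obtain ⟨Z, h1, h2, h3⟩ := exists_stein Y
  exact G.stein_le (h.trans h1) h2 h3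

theorem stein_singleton (x : Tor M) : stein {x} = 0 :=
  Nat.le_zero.1 (G.stein_le Subset.rfl (G.conn_singleton x) (by simp))

theorem tdist_le_stein {X : Finset (Tor M)} {x y : Tor M} (hx : x ∈ X) (hy : y ∈ X) :
    tdist x y ≤ stein X := by
  obtain ⟨Z, h1, h2, h3⟩ := exists_stein X
  have := G.tdist_lt_card h2 (h1 hy) (h1 hx)
  omega

theorem card_le_stein (X : Finset (Tor M)) : X.card ≤ stein X + 1 := by
  obtain ⟨Z, h1, -, h3⟩ := exists_stein X
  exact (card_le_card h1).trans h3

theorem stein_union {X Y : Finset (Tor M)} {x y : Tor M} (hx : x ∈ X) (hy : y ∈ Y) :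
    stein (X ∪ Y) ≤ stein X + stein Y + tdist x y := by
  obtain ⟨Z, h1, h2, h3⟩ := exists_stein X
  obtain ⟨Z', h1', h2', h3'⟩ := exists_stein Y
  obtain ⟨P, hxP, hyP, hP, hc⟩ := G.exists_path _ x y le_rfl
  have c1 := G.conn_union h2 hP (h1 hx) hxP (by simp [tdist_self])
  have c2 := G.conn_union c1 h2' (mem_union_right _ hyP) (h1' hy) (by simp [tdist_self])
  have k1 := G.card_union_succ_le (h1 hx) hxP
  have k2 := G.card_union_succ_le (mem_union_right Z hyP) (h1' hy)
  refine G.stein_le (union_subset_union (h1.trans subset_union_left) h1') c2 (by omega)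

theorem stein_star (x : Tor M) : stein (star x) ≤ 4 :=
  G.stein_le Subset.rfl
    (G.conn_of_hub (G.mem_star_self x) fun _ hy => G.rch_step hy (G.tdist_star hy))
    (G.card_star_le x)

theorem stein_plus (X : Finset (Tor M)) : stein (plus X) ≤ 5 * stein X + 4 := by
  obtain ⟨Z, h1, h2, h3⟩ := exists_stein X
  refine G.stein_le (Y := plus Z) (biUnion_subset_biUnion_of_subset_left _ h1) (G.conn_plus h2) ?_
  have := card_biUnion_le_card_mul Z star 5 fun x _ => G.card_star_le x
  change (Z.biUnion star).card ≤ _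
  omega

theorem G.stein_add_le (X : Finset (Tor M)) (v : Tor M) :
    stein (X.image (· + v)) ≤ stein X := by
  obtain ⟨Z, h1, h2, h3⟩ := exists_stein X
  exact G.stein_le (image_subset_image h1)
    (G.conn_image _ h2 fun u _ w _ h => by rwa [tdist_add]) (card_image_le.trans h3)

theorem stein_add (X : Finset (Tor M)) (v : Tor M) : stein (X.image (· + v)) = stein X := by
  refine le_antisymm (G.stein_add_le X v) ?_
  have h := G.stein_add_le (X.image (· + v)) (-v)
  rw [image_image] at h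
  have e : ((fun x => x + -v) ∘ fun x : Tor M => x + v) = id := by
    funext x
    simp
  rwa [e, image_id] at h

theorem G.stein_empty : stein (∅ : Finset (Tor M)) = 0 :=
  Nat.le_zero.1 ((stein_mono (empty_subset {0})).trans (stein_singleton 0).le)

/-- The Steiner size is invariant under local isometries. -/
theorem stein_iso {M' : ℕ} [NeZero M'] (φ : Tor M → Tor M') (c : Tor M) (r : ℕ)
    (hφ : ∀ x y, tdist x c ≤ r → tdist y c ≤ r → tdist (φ x) (φ y) = tdist x y)
    (hon : ∀ x', tdist x' (φ c) ≤ r → ∃ x, tdist x c ≤ r ∧ φ x = x')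
    {X : Finset (Tor M)} {x : Tor M} (hx : x ∈ X) (h : tdist x c + stein X ≤ r) :
    stein (X.image φ) = stein X := by
  classical
  have h1 : stein (X.image φ) ≤ stein X := by
    obtain ⟨Z, h1, h2, h3⟩ := exists_stein X
    have hZ : ∀ u ∈ Z, tdist u c ≤ r := fun u hu => by
      have := G.tdist_lt_card h2 (h1 hx) hu
      have := tdist_triangle u x c
      omega
    exact G.stein_le (image_subset_image h1)
      (G.conn_image _ h2 fun u hu w hw h => by rwa [hφ u w (hZ u hu) (hZ w hw)])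
      (card_image_le.trans h3)
  refine le_antisymm h1 ?_
  obtain ⟨Z, k1, k2, k3⟩ := exists_stein (X.image φ)
  have hc : tdist (φ x) (φ c) = tdist x c := hφ x c (by omega) (by simp [tdist_self])
  have hZ : ∀ u ∈ Z, tdist u (φ c) ≤ r := fun u hu => by
    have := G.tdist_lt_card k2 (k1 (mem_image_of_mem φ hx)) hu
    have := tdist_triangle u (φ x) (φ c)
    omega
  choose! ψ hψ using hon
  refine G.stein_le (Y := Z.image ψ) (fun u hu => ?_)
    (G.conn_image _ k2 fun u hu w hw h => ?_) (card_image_le.trans k3)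
  · have hu' := k1 (mem_image_of_mem φ hu)
    have hur : tdist u c ≤ r := by
      have := tdist_le_stein hu hx
      have := tdist_triangle u x c
      omega
    obtain ⟨e1, e2⟩ := hψ _ (hZ _ hu')
    refine mem_image.2 ⟨φ u, hu', tdist_eq_zero ?_⟩
    rw [← hφ _ _ e1 hur, e2, tdist_self]
  · obtain ⟨e1, e2⟩ := hψ _ (hZ _ hu)
    obtain ⟨e3, e4⟩ := hψ _ (hZ _ hw)
    rwa [← hφ _ _ e1 e3, e2, e4]

end Vale.Agent.P144Z
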