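import Vale.Agent.P144Z.Lat

/-! The sup distance of the torus, representatives and squares. -/

namespace Vale.Agent.P144Z

open Finset Matrix

namespace G

variable {M : ℕ}

theorem vma_cast_le [NeZero M] (a : ℤ) : ((a : ZMod M).valMinAbs).natAbs ≤ a.natAbs := by
  have h1 := ZMod.valMinAbs_mem_Ioc (a : ZMod M)
  have h2 : (M : ℤ) ∣ (a : ZMod M).valMinAbs - a := by
    rw [← ZMod.intCast_zmod_eq_zero_iff_dvd]
    simp
  obtain ⟨k, hk⟩ := h2
  have hM : (0 : ℤ) < M := by exact_mod_cast Nat.pos_of_ne_zero (NeZero.ne M)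
  obtain ⟨h3, h4⟩ := h1
  rcases lt_trichotomy k 0 with h | h | h
  · have : (M : ℤ) * k ≤ -M := by nlinarith
    omega
  · subst h
    omega
  · have : (M : ℤ) ≤ M * k := by nlinarith
    omega

theorem vma_cast [NeZero M] {a : ℤ} (h : 2 * |a| < M) : (a : ZMod M).valMinAbs = a := by
  rw [ZMod.valMinAbs_spec]
  refine ⟨rfl, ?_, ?_⟩ <;> cases abs_cases a <;> omega

theorem vma_add_le [NeZero M] (a b : ZMod M) :
    (a + b).valMinAbs.natAbs ≤ a.valMinAbs.natAbs + b.valMinAbs.natAbs := by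
  have h := vma_cast_le (M := M) (a.valMinAbs + b.valMinAbs)
  rw [Int.cast_add, ZMod.coe_valMinAbs, ZMod.coe_valMinAbs] at h
  exact h.trans (Int.natAbs_add_le _ _)

end G

variable {M : ℕ} [NeZero M]

theorem tdist_self (x : Tor M) : tdist x x = 0 := by
  simp [tdist, lft]

theorem tdist_comm (x y : Tor M) : tdist x y = tdist y x := by
  have h1 := ZMod.natAbs_valMinAbs_neg (x.1 - y.1)
  have h2 := ZMod.natAbs_valMinAbs_neg (x.2 - y.2)
  rw [neg_sub] at h1 h2
  simp only [tdist, lft, Prod.fst_sub, Prod.snd_sub, h1, h2]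

theorem tdist_triangle (x y z : Tor M) : tdist x z ≤ tdist x y + tdist y z := by
  have h1 := G.vma_add_le (x.1 - y.1) (y.1 - z.1)
  have h2 := G.vma_add_le (x.2 - y.2) (y.2 - z.2)
  rw [sub_add_sub_cancel] at h1 h2
  simp only [tdist, lft, Prod.fst_sub, Prod.snd_sub]
  omega

theorem tdist_eq_zero {x y : Tor M} (h : tdist x y = 0) : x = y := by
  simp only [tdist, lft, Prod.fst_sub, Prod.snd_sub, Nat.max_eq_zero_iff, Int.natAbs_eq_zero,
    ZMod.valMinAbs_eq_zero, sub_eq_zero] at h
  exact Prod.ext h.1 h.2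

theorem tdist_add (x y v : Tor M) : tdist (x + v) (y + v) = tdist x y := by
  simp only [tdist, add_sub_add_right_eq_sub]

theorem tdist_le (x y : Tor M) : 2 * tdist x y ≤ M := by
  have h1 := ZMod.natAbs_valMinAbs_le (x - y).1
  have h2 := ZMod.natAbs_valMinAbs_le (x - y).2
  simp only [tdist, lft]
  omega

theorem prj_lft (x : Tor M) : prj M (lft x) = x := by
  simp [prj, lft]

theorem lft_prj {v : ℤ × ℤ} (h1 : 2 * |v.1| < M) (h2 : 2 * |v.2| < M) : lft (prj M v) = v := by
  simp only [prj, lft, G.vma_cast h1, G.vma_cast h2]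

theorem tdist_prj_le (u v : ℤ × ℤ) :
    tdist (prj M u) (prj M v) ≤ max (u.1 - v.1).natAbs (u.2 - v.2).natAbs := by
  have h1 := G.vma_cast_le (M := M) (u.1 - v.1)
  have h2 := G.vma_cast_le (M := M) (u.2 - v.2)
  rw [Int.cast_sub] at h1 h2
  simp only [tdist, lft, prj, Prod.fst_sub, Prod.snd_sub]
  omega

namespace G

omit [NeZero M] in
theorem prj_add (u v : ℤ × ℤ) : prj M (u + v) = prj M u + prj M v := by
  simp [prj]

omit [NeZero M] in
theorem prj_sub (u v : ℤ × ℤ) : prj M (u - v) = prj M u - prj M v := by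
  simp [prj]

omit [NeZero M] in
theorem prj_zero : prj M 0 = 0 := by
  simp [prj]

omit [NeZero M] in
theorem tdist_def (x y : Tor M) :
    tdist x y = max (lft (x - y)).1.natAbs (lft (x - y)).2.natAbs := rfl

theorem tdist_add_prj_le (x : Tor M) (v : ℤ × ℤ) :
    tdist (x + prj M v) x ≤ max v.1.natAbs v.2.natAbs := by
  have h := tdist_prj_le (M := M) v 0
  rw [← tdist_add _ _ x, prj_zero, zero_add, add_comm] at h
  simpa using h

theorem tdist_add_prj_le' (x : Tor M) (u v : ℤ × ℤ) :
    tdist (x + prj M u) (x + prj M v) ≤ max (u.1 - v.1).natAbs (u.2 - v.2).natAbs := by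
  have h := tdist_prj_le (M := M) u v
  rwa [← tdist_add _ _ x, add_comm _ x, add_comm _ x] at h

theorem add_prj_lft (x z : Tor M) : z + prj M (lft (x - z)) = x := by
  rw [prj_lft, add_sub_cancel]

omit [NeZero M] in
theorem uv_zero : uv M 0 = prj M (1, 0) := by simp [uv, prj]

omit [NeZero M] in
theorem uv_one : uv M 1 = prj M (0, 1) := by simp [uv, prj]

theorem mem_ball {z x : Tor M} {r : ℕ} : x ∈ ball z r ↔ tdist x z ≤ r := by
  simp [ball]

theorem ball_eq_image (z : Tor M) (r : ℕ) :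
    ball z r = (Icc (-(r : ℤ)) r ×ˢ Icc (-(r : ℤ)) r).image fun v => z + prj M v := by
  ext x
  simp only [mem_ball, mem_image, mem_product, mem_Icc]
  constructor
  · intro h
    refine ⟨lft (x - z), ?_, add_prj_lft x z⟩
    rw [tdist_def] at h
    omega
  · rintro ⟨v, hv, rfl⟩
    have := tdist_add_prj_le z v
    omega

end G

theorem tdist_uv (x : Tor M) (i : Fin 2) : tdist (x + uv M i) x ≤ 1 := by
  fin_cases i
  · simpa [G.uv_zero] using G.tdist_add_prj_le x (1, 0)
  · simpa [G.uv_one] using G.tdist_add_prj_le x (0, 1)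

theorem card_ball_le (z : Tor M) (r : ℕ) : (ball z r).card ≤ (2 * r + 1) ^ 2 := by
  rw [G.ball_eq_image]
  refine card_image_le.trans (le_of_eq ?_)
  rw [card_product, Int.card_Icc]
  have : ((r : ℤ) + 1 - -(r : ℤ)).toNat = 2 * r + 1 := by omega
  rw [this, sq]

theorem card_ball_eq (z : Tor M) {r : ℕ} (h : 2 * r + 1 ≤ M) :
    (ball z r).card = (2 * r + 1) ^ 2 := by
  rw [G.ball_eq_image, card_image_of_injOn]
  · rw [card_product, Int.card_Icc]
    have : ((r : ℤ) + 1 - -(r : ℤ)).toNat = 2 * r + 1 := by omega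
    rw [this, sq]
  · intro u hu v hv huv
    simp only [coe_product, Set.mem_prod, mem_coe, mem_Icc] at hu hv
    have e : prj M u = prj M v := add_left_cancel huv
    have e1 : lft (prj M u) = u := lft_prj (by cases abs_cases u.1 <;> omega)
      (by cases abs_cases u.2 <;> omega)
    have e2 : lft (prj M v) = v := lft_prj (by cases abs_cases v.1 <;> omega)
      (by cases abs_cases v.2 <;> omega)
    rw [← e1, e, e2]

end Vale.Agent.P144Z
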