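import Vale.Agent.P144Z.G.Stein

/-! Coverings, packings and anchored sums. -/

set_option linter.unusedSectionVars false

namespace Vale.Agent.P144Z

open Finset Matrix

variable {M : ℕ} [NeZero M]

/-- A set is covered by few squares. -/
theorem cover_stein (X : Finset (Tor M)) {r : ℕ} (hr : 1 ≤ r) :
    ∃ Z : Finset (Tor M), (Z.card : ℝ) ≤ 1 + 2 * stein X / r ∧ ∀ x ∈ X, ∃ z ∈ Z, tdist x z ≤ r := by
  classical
  obtain ⟨Y, h1, h2, h3⟩ := exists_stein X
  obtain ⟨Z, hZ, hmax⟩ := exists_max_image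
    (Y.powerset.filter fun Z => ∀ f ∈ Z, ∀ f' ∈ Z, f ≠ f' → r < tdist f f') card
    ⟨∅, by simp⟩
  rw [mem_filter, mem_powerset] at hZ
  have hr' : (0 : ℝ) < r := by exact_mod_cast hr
  refine ⟨Z, ?_, fun x hx => ?_⟩
  · by_cases hc : Z.card ≤ 1
    · have : (Z.card : ℝ) ≤ 1 := by exact_mod_cast hc
      have : (0 : ℝ) ≤ 2 * stein X / r := by positivity
      linarith
    · have hp := G.pack (Y := Y) (F := Z) (b := r / 2) (k := r / 2 + 1)
        (fun f hf f' hf' hne => by have := hZ.2 f hf f' hf' hne; omega) fun f hf => by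
          obtain ⟨f', hf', hne⟩ := exists_mem_ne (not_le.1 hc) f
          have h4 := hZ.2 f' hf' f hf hne
          exact G.card_near h2 (hZ.1 hf) (hZ.1 hf') f (a := 0) (by rw [tdist_self]) (by omega)
      have h5 : Z.card * (r + 1) ≤ 2 * (Z.card * (r / 2 + 1)) := by
        rw [mul_left_comm]
        exact Nat.mul_le_mul_left _ (by omega)
      have h6 : Z.card * r ≤ 2 * stein X := by
        rw [mul_add, mul_one] at h5
        omega
      have h7 : (Z.card : ℝ) ≤ 2 * stein X / r := by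
        rw [le_div_iff₀ hr']
        exact_mod_cast h6
      linarith
  · by_contra hn
    push Not at hn
    have hxZ : x ∉ Z := fun h => by
      have := hn x h
      rw [tdist_self] at this
      omega
    have := hmax (insert x Z) (by
      rw [mem_filter, mem_powerset]
      refine ⟨insert_subset (h1 hx) hZ.1, fun f hf f' hf' hne => ?_⟩
      rcases mem_insert.1 hf with rfl | hf1 <;> rcases mem_insert.1 hf' with rfl | hf2
      · exact absurd rfl hne
      · exact hn f' hf2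
      · rw [tdist_comm]
        exact hn f hf1
      · exact hZ.2 f hf1 f' hf2 hne)
    rw [card_insert_of_notMem hxZ] at this
    omega

/-- A square is covered by smaller squares. -/
theorem cover_ball (c : Tor M) (R : ℕ) {r : ℕ} (hr : 1 ≤ r) :
    ∃ Z : Finset (Tor M), (Z.card : ℝ) ≤ (2 * R / r + 1) ^ 2 ∧ (∀ z ∈ Z, tdist z c ≤ R) ∧
      ∀ x, tdist x c ≤ R → ∃ z ∈ Z, tdist x z ≤ r := by
  refine ⟨(range (2 * R / r + 1) ×ˢ range (2 * R / r + 1)).image fun j : ℕ × ℕ =>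
    c + prj M (((r * j.1 : ℕ) : ℤ) - R, ((r * j.2 : ℕ) : ℤ) - R), ?_, ?_, ?_⟩
  · have h1 : (((2 * R / r : ℕ) : ℝ)) ≤ 2 * R / r := by
      simpa using Nat.cast_div_le (α := ℝ) (m := 2 * R) (n := r)
    calc _ ≤ (((range (2 * R / r + 1) ×ˢ range (2 * R / r + 1)).card : ℕ) : ℝ) := by
          exact_mod_cast card_image_le
      _ = (((2 * R / r : ℕ) : ℝ) + 1) ^ 2 := by
          rw [card_product, card_range]
          push_cast
          ring
      _ ≤ _ := by gcongr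
  · intro z hz
    obtain ⟨j, hj, rfl⟩ := mem_image.1 hz
    simp only [mem_product, mem_range] at hj
    have k : ∀ a : ℕ, a < 2 * R / r + 1 → r * a ≤ 2 * R := fun a ha =>
      (Nat.mul_le_mul_left r (Nat.lt_succ_iff.1 ha)).trans (Nat.mul_div_le _ _)
    have k1 := k _ hj.1
    have k2 := k _ hj.2
    refine (G.tdist_add_prj_le c _).trans ?_
    simp only
    omega
  · intro x hx
    have ex := G.add_prj_lft x c
    rw [G.tdist_def] at hx
    set v := lft (x - c)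
    have k : ∀ t : ℤ, t.natAbs ≤ R → ∃ a : ℕ, a < 2 * R / r + 1 ∧
        (t - (((r * a : ℕ) : ℤ) - R)).natAbs ≤ r := by
      intro t ht
      refine ⟨(t + R).toNat / r, Nat.lt_succ_of_le (Nat.div_le_div_right (by omega)), ?_⟩
      have h1 := Nat.div_add_mod (t + R).toNat r
      have h2 := Nat.mod_lt (t + R).toNat (show 0 < r from hr)
      omega
    obtain ⟨a, ha, ha'⟩ := k v.1 (by omega)
    obtain ⟨b, hb, hb'⟩ := k v.2 (by omega)
    refine ⟨_, mem_image.2 ⟨(a, b), by simp [ha, hb, -Order.lt_add_one_iff], rfl⟩, ?_⟩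
    rw [← ex]
    exact (G.tdist_add_prj_le' c _ _).trans (max_le ha' hb')

/-- Separated points near a set are few. -/
theorem card_sep (X F : Finset (Tor M)) {r : ℕ} (hr : 1 ≤ r)
    (hF : ∀ f ∈ F, ∀ f' ∈ F, f ≠ f' → 4 * r < tdist f f')
    (hX : ∀ f ∈ F, ∃ x ∈ X, tdist x f ≤ r) : (F.card : ℝ) ≤ 1 + 2 * stein X / r := by
  obtain ⟨Y, h1, h2, h3⟩ := exists_stein X
  have hr' : (0 : ℝ) < r := by exact_mod_cast hr
  by_cases hc : F.card ≤ 1
  · have : (F.card : ℝ) ≤ 1 := by exact_mod_cast hc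
    have : (0 : ℝ) ≤ 2 * stein X / r := by positivity
    linarith
  · have hp := G.pack (Y := Y) (F := F) (b := 2 * r) (k := r + 1)
      (fun f hf f' hf' hne => by have := hF f hf f' hf' hne; omega) fun f hf => by
        obtain ⟨f', hf', hne⟩ := exists_mem_ne (not_le.1 hc) f
        obtain ⟨x, hx, hxf⟩ := hX f hf
        obtain ⟨x', hx', hxf'⟩ := hX f' hf'
        have h4 := hF f' hf' f hf hne
        have h5 := tdist_triangle f' x' f
        rw [tdist_comm f' x'] at h5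
        have := G.card_near h2 (h1 hx) (h1 hx') f (b := 2 * r) hxf (by omega)
        omega
    have h6 : F.card * r ≤ 2 * stein X := by
      rw [mul_add, mul_one] at hp
      omega
    have h7 : (F.card : ℝ) ≤ 2 * stein X / r := by
      rw [le_div_iff₀ hr']
      exact_mod_cast h6
    linarith

namespace G

theorem anch_nonneg {ℓ : ℕ} {τ ε : ℝ} {f : Finset (Tor M) → ℝ} (hf : ∀ X, 0 ≤ f X)
    (hA : Anch ℓ τ f ε) : 0 ≤ ε :=
  le_trans (sum_nonneg fun X _ => mul_nonneg (hf X) (Real.exp_pos _).le) (hA 0)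

/-- An anchored sum over the sets that meet one of several squares. -/
theorem anch_cover {ℓ : ℕ} {τ ε : ℝ} {f : Finset (Tor M) → ℝ} (hf : ∀ X, 0 ≤ f X)
    (hA : Anch ℓ τ f ε) (S : Finset (Finset (Tor M))) (Z : Finset (Tor M))
    (h : ∀ X ∈ S, ∃ x ∈ X, ∃ z ∈ Z, tdist x z ≤ ℓ) :
    ∑ X ∈ S, f X * Real.exp (τ * (stein X : ℝ) / ℓ) ≤ Z.card * ε := by
  have h0 : ∀ X, 0 ≤ f X * Real.exp (τ * (stein X : ℝ) / ℓ) := fun X =>
    mul_nonneg (hf X) (Real.exp_pos _).le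
  calc _ ≤ ∑ X ∈ S, ∑ z ∈ Z, if ∃ x ∈ X, tdist x z ≤ ℓ then
        f X * Real.exp (τ * (stein X : ℝ) / ℓ) else 0 := by
        refine sum_le_sum fun X hX => ?_
        obtain ⟨x, hx, z, hz, hd⟩ := h X hX
        refine le_trans (le_of_eq ?_) (single_le_sum (fun z _ => ?_) hz)
        · rw [if_pos ⟨x, hx, hd⟩]
        · split_ifs
          exacts [h0 X, le_rfl]
    _ = ∑ z ∈ Z, ∑ X ∈ S, if ∃ x ∈ X, tdist x z ≤ ℓ then
        f X * Real.exp (τ * (stein X : ℝ) / ℓ) else 0 := sum_comm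
    _ ≤ ∑ _z ∈ Z, ε := by
        refine sum_le_sum fun z _ => le_trans ?_ (hA z)
        rw [← sum_filter]
        exact sum_le_sum_of_subset_of_nonneg (filter_subset_filter _ (subset_univ S))
          fun X _ _ => h0 X
    _ = _ := by simp

/-- The same without weights, for sets of size at least `t`. -/
theorem anch_cover' {ℓ : ℕ} {τ ε t : ℝ} {f : Finset (Tor M) → ℝ} (hf : ∀ X, 0 ≤ f X)
    (hA : Anch ℓ τ f ε) (S : Finset (Finset (Tor M))) (Z : Finset (Tor M))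
    (h : ∀ X ∈ S, ∃ x ∈ X, ∃ z ∈ Z, tdist x z ≤ ℓ)
    (ht : ∀ X ∈ S, t ≤ τ * (stein X : ℝ) / ℓ) :
    ∑ X ∈ S, f X ≤ Z.card * Real.exp (-t) * ε := by
  have h1 := anch_cover hf hA S Z h
  calc _ ≤ ∑ X ∈ S, Real.exp (-t) * (f X * Real.exp (τ * (stein X : ℝ) / ℓ)) := by
        refine sum_le_sum fun X hX => ?_
        rw [mul_left_comm, ← Real.exp_add]
        exact le_mul_of_one_le_right (hf X) (Real.one_le_exp (by linarith [ht X hX]))
    _ ≤ Real.exp (-t) * (Z.card * ε) := by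
        rw [← mul_sum]
        exact mul_le_mul_of_nonneg_left h1 (Real.exp_pos _).le
    _ = _ := by ring

end G

/-- Anchored sums control the sums over the neighbours of a set at a larger scale. -/
theorem Anch.touch {ℓ ℓ' : ℕ} (h1 : 1 ≤ ℓ) (h : ℓ ≤ ℓ') {τ ε : ℝ} {f : Finset (Tor M) → ℝ}
    (hf : ∀ X, 0 ≤ f X) (hA : Anch ℓ τ f ε) (Y : Finset (Tor M)) :
    ∑ X ∈ univ.filter (fun X : Finset (Tor M) => ∃ x ∈ X, ∃ y ∈ Y, tdist x y ≤ ℓ'),
      f X * Real.exp (τ * (stein X : ℝ) / ℓ)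
        ≤ 50 * ((ℓ' : ℝ) / ℓ) ^ 2 * ε * (1 + stein Y / ℓ') := by
  obtain ⟨Z, hZ, hc⟩ := cover_stein Y (h1.trans h)
  choose W hW _ hW' using fun c : Tor M => cover_ball c (2 * ℓ') h1
  have hε := G.anch_nonneg hf hA
  have hl : (0 : ℝ) < ℓ := by exact_mod_cast h1
  have hq : (1 : ℝ) ≤ (ℓ' : ℝ) / ℓ := by
    rw [le_div_iff₀ hl, one_mul]
    exact_mod_cast h
  refine (G.anch_cover hf hA _ (Z.biUnion W) fun X hX => ?_).trans ?_
  · obtain ⟨x, hx, y, hy, hd⟩ := (mem_filter.1 hX).2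
    obtain ⟨z, hz, hd'⟩ := hc y hy
    have := tdist_triangle x y z
    obtain ⟨w, hw, hd''⟩ := hW' z x (by omega)
    exact ⟨x, hx, w, mem_biUnion.2 ⟨z, hz, hw⟩, hd''⟩
  · have k1 : ∀ z, ((W z).card : ℝ) ≤ 25 * ((ℓ' : ℝ) / ℓ) ^ 2 := fun z => by
      refine (hW z).trans ?_
      have e : (2 : ℝ) * ((2 * ℓ' : ℕ) : ℝ) / ℓ = 4 * ((ℓ' : ℝ) / ℓ) := by
        push_cast
        ring
      rw [e]
      nlinarith
    have k2 : ((Z.biUnion W).card : ℝ) ≤ Z.card * (25 * ((ℓ' : ℝ) / ℓ) ^ 2) := by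
      calc _ ≤ ((∑ z ∈ Z, (W z).card : ℕ) : ℝ) := by exact_mod_cast card_biUnion_le
        _ = ∑ z ∈ Z, ((W z).card : ℝ) := by push_cast; rfl
        _ ≤ ∑ _z ∈ Z, 25 * ((ℓ' : ℝ) / ℓ) ^ 2 := sum_le_sum fun z _ => k1 z
        _ = _ := by simp
    have k3 : (Z.card : ℝ) ≤ 2 * (1 + (stein Y : ℝ) / ℓ') := by
      rw [mul_div_assoc] at hZ
      linarith
    calc _ ≤ (2 * (1 + (stein Y : ℝ) / ℓ')) * (25 * ((ℓ' : ℝ) / ℓ) ^ 2) * ε := by
          refine mul_le_mul_of_nonneg_right (k2.trans ?_) hε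
          gcongr
      _ = _ := by ring

/-- The sets that are not much smaller than their distance to a square have a bounded sum. -/
theorem Anch.near {ℓ : ℕ} (h1 : 1 ≤ ℓ) {τ ε : ℝ} (hτ : 8 ≤ τ) {f : Finset (Tor M) → ℝ}
    (hf : ∀ X, 0 ≤ f X) (hA : Anch ℓ τ f ε) (c : Tor M) (R : ℕ) :
    ∑ X ∈ univ.filter (fun X : Finset (Tor M) => ∃ x ∈ X, tdist x c ≤ R + 2 * stein X), f X
      ≤ 100 * ((R : ℝ) / ℓ + 1) ^ 2 * ε := by
  have hε := G.anch_nonneg hf hA
  have hl : (0 : ℝ) < ℓ := by exact_mod_cast h1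
  set S := univ.filter (fun X : Finset (Tor M) => ∃ x ∈ X, tdist x c ≤ R + 2 * stein X) with hS
  have hρ : (0 : ℝ) ≤ (R : ℝ) / ℓ := by positivity
  have key : ∀ k : ℕ, ∑ X ∈ S with stein X / ℓ = k, f X ≤
      25 * ((R : ℝ) / ℓ + 1) ^ 2 * ε * (1 / 2) ^ k := by
    intro k
    obtain ⟨Z, hZ, -, hc⟩ := cover_ball c (R + 2 * ((k + 1) * ℓ)) h1
    refine (G.anch_cover' (t := 8 * k) hf hA _ Z (fun X hX => ?_) fun X hX => ?_).trans ?_
    · obtain ⟨hX1, hX2⟩ := mem_filter.1 hX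
      obtain ⟨x, hx, hd⟩ := (mem_filter.1 hX1).2
      have : stein X < (k + 1) * ℓ := (Nat.div_lt_iff_lt_mul h1).1 (by omega)
      obtain ⟨z, hz, hd'⟩ := hc x (by omega)
      exact ⟨x, hx, z, hz, hd'⟩
    · have h2 : k * ℓ ≤ stein X := by
        rw [← (mem_filter.1 hX).2]
        exact Nat.div_mul_le_self _ _
      have h3 : (k : ℝ) ≤ (stein X : ℝ) / ℓ := by
        rw [le_div_iff₀ hl]
        exact_mod_cast h2
      rw [mul_div_assoc]
      have : (0 : ℝ) ≤ k := by positivity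
      exact mul_le_mul hτ h3 this (by linarith)
    · have e : (2 : ℝ) * ((R + 2 * ((k + 1) * ℓ) : ℕ) : ℝ) / ℓ + 1 =
          2 * ((R : ℝ) / ℓ) + 4 * k + 5 := by
        push_cast
        field_simp
        ring
      rw [e] at hZ
      have hk : (0 : ℝ) ≤ k := by positivity
      have a1 : 2 * ((R : ℝ) / ℓ) + 4 * k + 5 ≤ 5 * ((R : ℝ) / ℓ + 1) * Real.exp k := by
        have := Real.add_one_le_exp (k : ℝ)
        nlinarith [mul_nonneg hρ hk]
      have a2 : Real.exp k ^ 2 * Real.exp (-(8 * k)) ≤ (1 / 2) ^ k := by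
        have b1 : Real.exp (-6) ≤ 1 / 2 := by
          rw [Real.exp_neg, inv_le_comm₀ (Real.exp_pos _) (by norm_num)]
          linarith [Real.add_one_le_exp (6 : ℝ)]
        calc _ = Real.exp (-6) ^ k := by
              rw [← Real.exp_nat_mul, ← Real.exp_nat_mul, ← Real.exp_add]
              congr 1
              push_cast
              ring
          _ ≤ _ := pow_le_pow_left₀ (Real.exp_pos _).le b1 k
      calc _ ≤ (5 * ((R : ℝ) / ℓ + 1) * Real.exp k) ^ 2 * Real.exp (-(8 * k)) * ε := by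
            refine mul_le_mul_of_nonneg_right
              (mul_le_mul_of_nonneg_right (hZ.trans ?_) (Real.exp_pos _).le) hε
            gcongr
        _ = 25 * ((R : ℝ) / ℓ + 1) ^ 2 * ε * (Real.exp k ^ 2 * Real.exp (-(8 * k))) := by ring
        _ ≤ _ := by gcongr
  rw [← sum_fiberwise_of_maps_to (t := S.image fun X => stein X / ℓ) (g := fun X => stein X / ℓ)
    fun X hX => mem_image_of_mem _ hX]
  refine (sum_le_sum fun k _ => key k).trans ?_
  rw [← mul_sum]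
  have hs : ∑ k ∈ S.image fun X => stein X / ℓ, (1 / 2 : ℝ) ^ k ≤ 2 :=
    (summable_geometric_two.sum_le_tsum _ fun k _ => by positivity).trans tsum_geometric_two.le
  have h0 : 0 ≤ ((R : ℝ) / ℓ + 1) ^ 2 * ε := by positivity
  calc _ ≤ 25 * ((R : ℝ) / ℓ + 1) ^ 2 * ε * 2 := by gcongr
    _ ≤ _ := by nlinarith

/-- The large sets have an exponentially small sum. -/
theorem Anch.large {ℓ : ℕ} (h1 : 1 ≤ ℓ) {τ ε : ℝ} (hτ : 0 ≤ τ) {f : Finset (Tor M) → ℝ}
    (hf : ∀ X, 0 ≤ f X) (hA : Anch ℓ τ f ε) (r : ℕ) (hr : 1 ≤ r) :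
    ∑ X ∈ univ.filter (fun X : Finset (Tor M) => r ≤ stein X), f X
      ≤ ((M : ℝ) / ℓ + 1) ^ 2 * Real.exp (-(τ * r / ℓ)) * ε := by
  have hε := G.anch_nonneg hf hA
  have hl : (0 : ℝ) < ℓ := by exact_mod_cast h1
  obtain ⟨Z, hZ, -, hc⟩ := cover_ball (0 : Tor M) (M / 2) h1
  refine (G.anch_cover' (t := τ * r / ℓ) hf hA _ Z (fun X hX => ?_) fun X hX => ?_).trans ?_
  · have hX' := (mem_filter.1 hX).2
    obtain ⟨x, hx⟩ : X.Nonempty := by
      rw [nonempty_iff_ne_empty]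
      rintro rfl
      rw [G.stein_empty] at hX'
      omega
    obtain ⟨z, hz, hd⟩ := hc x (by have := tdist_le x 0; omega)
    exact ⟨x, hx, z, hz, hd⟩
  · have : (r : ℝ) ≤ stein X := by exact_mod_cast (mem_filter.1 hX).2
    gcongr
  · have e : (2 : ℝ) * ((M / 2 : ℕ) : ℝ) ≤ M := by exact_mod_cast Nat.mul_div_le M 2
    refine mul_le_mul_of_nonneg_right
      (mul_le_mul_of_nonneg_right (hZ.trans ?_) (Real.exp_pos _).le) hε
    gcongr

end Vale.Agent.P144Z
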