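import Vale.Agent.P144Z.G.Basic

/-! Path signs of gauge fields. -/

set_option linter.unusedSectionVars false

namespace Vale.Agent.P144Z

open Finset Matrix

variable {M : ℕ} [NeZero M]

namespace G

theorem sign_sq {α : Type} {A : α → ℝ} (hA : IsSign A) (e : α) : A e * A e = 1 := by
  rcases hA e with h | h <;> simp [h]

theorem sign_mul {a b : ℝ} (ha : a = 1 ∨ a = -1) (hb : b = 1 ∨ b = -1) :
    a * b = 1 ∨ a * b = -1 := by
  rcases ha with h | h <;> rcases hb with h' | h' <;> simp [h, h']

theorem sign_prod {α ι : Type} {A : α → ℝ} (hA : IsSign A) (s : Finset ι) (f : ι → α) :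
    ∏ i ∈ s, A (f i) = 1 ∨ ∏ i ∈ s, A (f i) = -1 := by
  classical
  induction s using Finset.induction_on with
  | empty => simp
  | insert a s ha ih =>
    rw [prod_insert ha]
    exact sign_mul (hA _) ih

theorem line_zero (A : Gauge M) (x : Tor M) (i : Fin 2) : line A x i 0 = 1 := by
  simp [line]

theorem line_up (A : Gauge M) (x : Tor M) (i : Fin 2) {n : ℤ} (hn : 0 ≤ n) :
    line A x i (n + 1) = line A x i n * A (x + n • uv M i, i) := by
  have e : Finset.Ico (min 0 (n + 1)) (max 0 (n + 1)) =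
      insert n (Finset.Ico (min 0 n) (max 0 n)) := by
    ext m
    simp only [mem_Ico, mem_insert]
    omega
  rw [line, e, prod_insert (by simp only [mem_Ico]; omega), mul_comm, line]

theorem line_down (A : Gauge M) (x : Tor M) (i : Fin 2) {n : ℤ} (hn : n ≤ 0) :
    line A x i (n - 1) = line A x i n * A (x + (n - 1) • uv M i, i) := by
  have e : Finset.Ico (min 0 (n - 1)) (max 0 (n - 1)) =
      insert (n - 1) (Finset.Ico (min 0 n) (max 0 n)) := by
    ext m
    simp only [mem_Ico, mem_insert]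
    omega
  rw [line, e, prod_insert (by simp only [mem_Ico]; omega), mul_comm, line]

theorem line_succ {A : Gauge M} (hA : IsSign A) (x : Tor M) (i : Fin 2) (n : ℤ) :
    line A x i (n + 1) = line A x i n * A (x + n • uv M i, i) := by
  rcases le_or_gt 0 n with h | h
  · exact line_up A x i h
  · have h1 := line_down A x i (n := n + 1) (by omega)
    rw [add_sub_cancel_right] at h1
    rw [h1, mul_assoc, sign_sq hA, mul_one]

theorem line_sign {A : Gauge M} (hA : IsSign A) (x : Tor M) (i : Fin 2) (n : ℤ) :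
    line A x i n = 1 ∨ line A x i n = -1 :=
  sign_prod hA _ fun m : ℤ => (x + m • uv M i, i)

theorem smul_uv_zero (n : ℤ) : n • uv M 0 = prj M (n, 0) := by
  simp [uv, prj]

theorem smul_uv_one (n : ℤ) : n • uv M 1 = prj M (0, n) := by
  simp [uv, prj]

theorem lft_add_sub (c : Tor M) {v : ℤ × ℤ} (h1 : 2 * |v.1| < M) (h2 : 2 * |v.2| < M) :
    lft (c + prj M v - c) = v := by
  rw [add_sub_cancel_left, lft_prj h1 h2]

theorem lft_bound {x z : Tor M} {r : ℕ} (h : tdist x z ≤ r) :
    |(lft (x - z)).1| ≤ r ∧ |(lft (x - z)).2| ≤ r := by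
  rw [tdist_def] at h
  constructor <;> rw [abs_le] <;> omega

theorem tdist_le_of_abs (c : Tor M) {v : ℤ × ℤ} {r : ℕ} (h1 : |v.1| ≤ r) (h2 : |v.2| ≤ r) :
    tdist (c + prj M v) c ≤ r := by
  have := tdist_add_prj_le c v
  rw [abs_le] at h1 h2
  omega

/-- Moving a vertical path by one step through flat faces. -/
theorem line_slide {A : Gauge M} (hA : IsSign A) (w : Tor M) (r : ℕ)
    (hF : ∀ m : ℤ, |m| ≤ r → flux A (w + m • uv M 1) = 1) (n : ℤ) (hn : |n| ≤ r) :
    A (w, 0) * line A (w + uv M 0) 1 n = line A w 1 n * A (w + n • uv M 1, 0) := by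
  have key : ∀ m : ℤ, |m| ≤ r →
      A (w + m • uv M 1, 0) * A (w + uv M 0 + m • uv M 1, 1) =
        A (w + m • uv M 1, 1) * A (w + (m + 1) • uv M 1, 0) := by
    intro m hm
    have h := hF m hm
    rw [flux] at h
    have e1 : w + m • uv M 1 + uv M 0 = w + uv M 0 + m • uv M 1 := add_right_comm _ _ _
    have e2 : w + m • uv M 1 + uv M 1 = w + (m + 1) • uv M 1 := by
      rw [add_smul, one_smul, add_assoc]
    rw [e1, e2] at h
    have s1 := sign_sq hA (w + m • uv M 1, 1)
    have s2 := sign_sq hA (w + (m + 1) • uv M 1, 0)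
    set a := A (w + m • uv M 1, 0)
    set b := A (w + uv M 0 + m • uv M 1, 1)
    set c := A (w + (m + 1) • uv M 1, 0)
    set d := A (w + m • uv M 1, 1)
    calc a * b = a * b * (c * c) * (d * d) := by rw [s1, s2]; ring
      _ = (a * b * c * d) * (d * c) := by ring
      _ = d * c := by rw [h, one_mul]
  induction n using Int.induction_on with
  | zero => simp [line_zero]
  | succ k ih =>
    have hk : |(k : ℤ)| ≤ r := by rw [abs_le] at hn ⊢; omega
    rw [line_succ hA, line_succ hA, ← mul_assoc, ih hk, mul_assoc, key k hk, mul_assoc]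
  | pred k ih =>
    have hk : |-(k : ℤ)| ≤ r := by rw [abs_le] at hn ⊢; omega
    have h1 := ih hk
    have h2 := key _ hn
    have h3 := line_succ hA (w + uv M 0) 1 (-(k : ℤ) - 1)
    have h4 := line_succ hA w 1 (-(k : ℤ) - 1)
    rw [sub_add_cancel] at h2 h3 h4
    rw [h3, h4] at h1
    have s1 := sign_sq hA (w + uv M 0 + (-(k : ℤ) - 1) • uv M 1, 1)
    set b := A (w + uv M 0 + (-(k : ℤ) - 1) • uv M 1, 1)
    set a := A (w + (-(k : ℤ) - 1) • uv M 1, 0)
    set p := line A (w + uv M 0) 1 (-(k : ℤ) - 1)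
    set q := line A w 1 (-(k : ℤ) - 1)
    calc A (w, 0) * p = A (w, 0) * (p * b) * b := by rw [mul_assoc, mul_assoc, s1, mul_one]
      _ = q * (a * b) * b := by rw [h1, h2, mul_assoc q]
      _ = q * a := by rw [mul_assoc, mul_assoc, s1, mul_one]

end G

/-- A flat gauge field is trivial on a square. -/
theorem trans_gauge {A : Gauge M} (hA : IsSign A) {z : Tor M} {r : ℕ} (hr : 2 * r + 3 ≤ M)
    (hF : Flat A z r) {x : Tor M} {i : Fin 2} (hx : tdist x z ≤ r)
    (hx' : tdist (x + uv M i) z ≤ r) : trans A z (x + uv M i) = trans A z x * A (x, i) := by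
  obtain ⟨b1, b2⟩ := G.lft_bound hx
  have ex := G.add_prj_lft x z
  set v := lft (x - z) with hv
  have e0 : z + v.1 • uv M 0 + v.2 • uv M 1 = x := by
    rw [G.smul_uv_zero, G.smul_uv_one, add_assoc, ← G.prj_add]
    simpa using ex
  rw [abs_le] at b1 b2
  fin_cases i
  · have e : lft (x + uv M 0 - z) = (v.1 + 1, v.2) := by
      have : x + uv M 0 = z + prj M (v.1 + 1, v.2) := by
        rw [← ex, G.uv_zero, add_assoc, ← G.prj_add]
        simp [prj]
      rw [this]
      exact G.lft_add_sub z (by cases abs_cases (v.1 + 1) <;> simp only <;> omega)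
        (by cases abs_cases v.2 <;> simp only <;> omega)
    have hs := G.line_slide hA (z + v.1 • uv M 0) r (fun m hm => hF _ (by
      rw [G.smul_uv_zero, G.smul_uv_one, add_assoc, ← G.prj_add]
      refine G.tdist_le_of_abs z ?_ (by simpa using hm)
      simp only [Prod.fst_add, add_zero, abs_le]
      omega)) v.2 (abs_le.2 b2)
    change trans A z (x + uv M 0) = trans A z x * A (x, 0)
    simp only [trans, e, ← hv]
    rw [G.line_succ hA, add_smul, one_smul, ← add_assoc, mul_assoc, hs, e0, mul_assoc]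
  · have e : lft (x + uv M 1 - z) = (v.1, v.2 + 1) := by
      have : x + uv M 1 = z + prj M (v.1, v.2 + 1) := by
        rw [← ex, G.uv_one, add_assoc, ← G.prj_add]
        simp [prj]
      rw [this]
      exact G.lft_add_sub z (by cases abs_cases v.1 <;> simp only <;> omega)
        (by cases abs_cases (v.2 + 1) <;> simp only <;> omega)
    change trans A z (x + uv M 1) = trans A z x * A (x, 1)
    simp only [trans, e, ← hv]
    rw [G.line_succ hA, e0, mul_assoc]

theorem trans_sign {A : Gauge M} (hA : IsSign A) (x : Tor M) : IsSign (trans A x) := fun _ =>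
  G.sign_mul (G.line_sign hA _ _ _) (G.line_sign hA _ _ _)

theorem trans_self (A : Gauge M) (x : Tor M) : trans A x x = 1 := by
  simp [trans, lft, G.line_zero]

namespace G

/-- The unit vectors of the plane lattice. -/
def ez (i : Fin 2) : ℤ × ℤ := if i = 0 then (1, 0) else (0, 1)

theorem smul_uv (n : ℤ) (i : Fin 2) : n • uv M i = prj M (n • ez i) := by
  fin_cases i <;> simp [uv, prj, ez]

theorem uv_eq (i : Fin 2) : uv M i = prj M (ez i) := by
  simpa using smul_uv (M := M) 1 i

theorem line_iso {M' : ℕ} [NeZero M'] {A : Gauge M} {A' : Gauge M'} {c : Tor M} {c' : Tor M'}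
    {r : ℕ} (hr : 2 * r + 1 ≤ M) {ε : Tor M → ℝ} (hε : IsSign ε)
    (h : ∀ x i, tdist x c ≤ r → tdist (x + uv M i) c ≤ r →
      A' (c' + prj M' (lft (x - c)), i) = ε x * ε (x + uv M i) * A (x, i))
    (a : ℤ × ℤ) (i : Fin 2) (ha : |a.1| ≤ r ∧ |a.2| ≤ r) (n : ℤ)
    (hn : |(a + n • ez i).1| ≤ r ∧ |(a + n • ez i).2| ≤ r) :
    line A' (c' + prj M' a) i n =
      ε (c + prj M a) * ε (c + prj M (a + n • ez i)) * line A (c + prj M a) i n := by
  have key : ∀ m : ℤ, (|(a + m • ez i).1| ≤ r ∧ |(a + m • ez i).2| ≤ r) →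
      (|(a + (m + 1) • ez i).1| ≤ r ∧ |(a + (m + 1) • ez i).2| ≤ r) →
      A' (c' + prj M' a + m • uv M' i, i) = ε (c + prj M (a + m • ez i)) *
        ε (c + prj M (a + (m + 1) • ez i)) * A (c + prj M a + m • uv M i, i) := by
    intro m h1 h2
    have e1 : c + prj M (a + m • ez i) + uv M i = c + prj M (a + (m + 1) • ez i) := by
      rw [uv_eq, add_assoc, ← prj_add, add_smul, one_smul, add_assoc]
    have h3 := h (c + prj M (a + m • ez i)) i (tdist_le_of_abs c h1.1 h1.2)
      (by rw [e1]; exact tdist_le_of_abs c h2.1 h2.2)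
    rw [lft_add_sub c (by omega) (by omega), e1] at h3
    rw [smul_uv, smul_uv, add_assoc, add_assoc, ← prj_add, ← prj_add, h3]
  have mid : ∀ m : ℤ, min 0 n ≤ m → m ≤ max 0 n →
      (|(a + m • ez i).1| ≤ r ∧ |(a + m • ez i).2| ≤ r) := by
    intro m h1 h2
    simp only [abs_le] at ha hn ⊢
    fin_cases i <;> simp [ez] at hn ⊢ <;> omega
  clear hn
  induction n using Int.induction_on with
  | zero => simp [line_zero, sign_sq hε]
  | succ k ih =>
    rw [line_up _ _ _ (by omega), line_up _ _ _ (by omega),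
      ih (fun m h1 h2 => mid m (by omega) (by omega)),
      key k (mid _ (by omega) (by omega)) (mid _ (by omega) (by omega))]
    have s := sign_sq hε (c + prj M (a + (k : ℤ) • ez i))
    set p := ε (c + prj M (a + (k : ℤ) • ez i))
    calc _ = (p * p) * (ε (c + prj M a) * ε (c + prj M (a + ((k : ℤ) + 1) • ez i)) *
        (line A (c + prj M a) i k * A (c + prj M a + (k : ℤ) • uv M i, i))) := by ring
      _ = _ := by rw [s, one_mul]
  | pred k ih =>
    have k1 := key (-(k : ℤ) - 1) (mid _ (by omega) (by omega)) (mid _ (by omega) (by omega))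
    rw [sub_add_cancel] at k1
    rw [line_down _ _ _ (by omega), line_down _ _ _ (by omega),
      ih (fun m h1 h2 => mid m (by omega) (by omega)), k1]
    have s := sign_sq hε (c + prj M (a + (-(k : ℤ)) • ez i))
    set p := ε (c + prj M (a + (-(k : ℤ)) • ez i))
    calc _ = (p * p) * (ε (c + prj M a) * ε (c + prj M (a + (-(k : ℤ) - 1) • ez i)) *
        (line A (c + prj M a) i (-k) * A (c + prj M a + (-(k : ℤ) - 1) • uv M i, i))) := by ring
      _ = _ := by rw [s, one_mul]

end G

/-- Gauge covariance of the path sign. -/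
theorem trans_iso {M' : ℕ} [NeZero M'] {A : Gauge M} {A' : Gauge M'} {c : Tor M} {c' : Tor M'}
    {r : ℕ} (hr : 4 * r + 1 ≤ M) (hr' : 4 * r + 1 ≤ M') {ε : Tor M → ℝ} (hε : IsSign ε)
    (h : ∀ x i, tdist x c ≤ r → tdist (x + uv M i) c ≤ r →
      A' (c' + prj M' (lft (x - c)), i) = ε x * ε (x + uv M i) * A (x, i))
    {x y : Tor M} (hx : tdist x c ≤ r) (hy : tdist y c ≤ r) :
    trans A' (c' + prj M' (lft (x - c))) (c' + prj M' (lft (y - c))) =
      ε x * ε y * trans A x y := by
  have bx := G.lft_bound hx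
  have by' := G.lft_bound hy
  have ex := G.add_prj_lft x c
  have ey := G.add_prj_lft y c
  set u := lft (x - c) with hu
  set v := lft (y - c) with hv
  have d1 : |(v - u).1| ≤ 2 * r := by
    simp only [Prod.fst_sub, abs_le] at bx by' ⊢
    omega
  have d2 : |(v - u).2| ≤ 2 * r := by
    simp only [Prod.snd_sub, abs_le] at bx by' ⊢
    omega
  have e1 : lft (y - x) = v - u := by
    rw [← ex, ← ey, add_sub_add_left_eq_sub, ← G.prj_sub]
    exact lft_prj (by omega) (by omega)
  have e2 : lft (c' + prj M' v - (c' + prj M' u)) = v - u := by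
    rw [add_sub_add_left_eq_sub, ← G.prj_sub]
    exact lft_prj (by omega) (by omega)
  have m1 : u + (v - u).1 • G.ez 0 = (v.1, u.2) := by
    ext <;> simp [G.ez]
  have m2 : (v.1, u.2) + (v - u).2 • G.ez 1 = v := by
    ext <;> simp [G.ez]
  have l1 := G.line_iso (by omega) hε h u 0 bx (v - u).1 (by rw [m1]; exact ⟨by'.1, bx.2⟩)
  have l2 := G.line_iso (by omega) hε h (v.1, u.2) 1 ⟨by'.1, bx.2⟩ (v - u).2
    (by rw [m2]; exact by')
  rw [m1, ex] at l1
  rw [m2, ey] at l2
  have p1 : c' + prj M' u + (v - u).1 • uv M' 0 = c' + prj M' (v.1, u.2) := by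
    rw [G.smul_uv, add_assoc, ← G.prj_add, m1]
  have p2 : x + (v - u).1 • uv M 0 = c + prj M (v.1, u.2) := by
    rw [G.smul_uv, ← ex, add_assoc, ← G.prj_add, m1]
  simp only [trans, e1, e2]
  rw [p1, p2, l1, l2]
  have s := G.sign_sq hε (c + prj M (v.1, u.2))
  set p := ε (c + prj M (v.1, u.2))
  calc _ = (p * p) * (ε x * ε y * (line A x 0 (v - u).1 *
      line A (c + prj M (v.1, u.2)) 1 (v - u).2)) := by ring
    _ = _ := by rw [s, one_mul]

end Vale.Agent.P144Z
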