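import Vale.Agent.P144Z.G.Basic
import Vale.Agent.P144Z.G.Trans
import Vale.Agent.P144Z.G.Stein
import Vale.Agent.P144Z.G.Cover

/-! Geometry of the torus: all statements of the block. -/
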